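import Vale.Agent.P278F.Hol

/-! Holomorphic maps on finite dimensional spaces are analytic. -/

open Metric Set Filter Topology

namespace P278F

variable {E F : Type*} [NormedAddCommGroup E] [NormedSpace ℂ E] [FiniteDimensional ℂ E]
  [NormedAddCommGroup F] [NormedSpace ℂ F] [CompleteSpace F]

theorem norm_iteratedFDeriv_le {f : E → F} {c : E} {R M δ : ℝ} (hδ : 0 < δ)
    (hd : DifferentiableOn ℂ f (ball c R)) (hM : ∀ z ∈ ball c R, ‖f z‖ ≤ M) (k : ℕ) :
    ∀ z, dist z c + k * δ < R → ‖iteratedFDeriv ℂ k f z‖ ≤ (2 / δ) ^ k * M := by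
  induction k with
  | zero =>
    intro z hz
    simpa using hM z (by simpa using hz)
  | succ k ih =>
    intro z hz
    push_cast at hz
    have hk : (0:ℝ) ≤ k * δ := by positivity
    have h1 : ∀ w ∈ ball z δ, dist w c + k * δ < R := fun w hw => by
      rw [mem_ball] at hw
      linarith [dist_triangle w z c]
    rw [← norm_fderiv_iteratedFDeriv]
    refine (norm_fderiv_le hδ (fun w hw => ?_) fun w hw => ih w (h1 w hw)).trans_eq ?_
    · have h2 : w ∈ ball c R := by rw [mem_ball]; linarith [h1 w hw]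
      have h3 := (contDiffOn_nat_aux isOpen_ball (k + 1) hd).contDiffAt (isOpen_ball.mem_nhds h2)
      exact (h3.differentiableAt_iteratedFDeriv (by exact_mod_cast Nat.lt_succ_self k)).differentiableWithinAt
    · rw [pow_succ]; field_simp

theorem iteratedDeriv_line {f : E → F} {c y : E} {R : ℝ} (hR : 0 < R)
    (hd : DifferentiableOn ℂ f (ball c R)) (n : ℕ) :
    iteratedDeriv n (fun t : ℂ => f (c + t • y)) 0 = iteratedFDeriv ℂ n f c fun _ => y := by
  let g : ℂ →L[ℂ] E := ContinuousLinearMap.toSpanSingleton ℂ y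
  have h0 : DifferentiableOn ℂ (fun z => f (c + z)) (ball 0 R) :=
    hd.comp (differentiableOn_id.const_add c) fun z hz => by simpa using hz
  have ho : IsOpen (g ⁻¹' ball 0 R) := isOpen_ball.preimage g.continuous
  have hm : g 0 ∈ ball (0 : E) R := by simpa using hR
  have h1 := g.iteratedFDerivWithin_comp_right (contDiffOn_nat_aux isOpen_ball n h0)
    isOpen_ball.uniqueDiffOn ho.uniqueDiffOn hm (i := n) le_rfl
  rw [iteratedFDerivWithin_of_isOpen n ho hm, iteratedFDerivWithin_of_isOpen n isOpen_ball hm,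
    iteratedFDeriv_comp_add_left] at h1
  have h2 : (fun t : ℂ => f (c + t • y)) = (fun z => f (c + z)) ∘ g := rfl
  rw [iteratedDeriv_eq_iteratedFDeriv, h2, h1]
  simp [g]

theorem analyticAt_of_ball {f : E → F} {c : E} {R M : ℝ} (hR : 0 < R)
    (hd : DifferentiableOn ℂ f (ball c R)) (hM : ∀ z ∈ ball c R, ‖f z‖ ≤ M) :
    AnalyticAt ℂ f c := by
  have hM0 : 0 ≤ M := (norm_nonneg _).trans (hM c (mem_ball_self hR))
  have he : 0 < Real.exp 1 := Real.exp_pos 1
  have he1 : 1 ≤ Real.exp 1 := Real.one_le_exp zero_le_one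
  let r : NNReal := ⟨R / (2 * Real.exp 1), by positivity⟩
  have hr : (r : ℝ) = R / (2 * Real.exp 1) := rfl
  let p : FormalMultilinearSeries ℂ E F := fun n => ((n.factorial : ℂ)⁻¹) • iteratedFDeriv ℂ n f c
  refine ⟨p, r, ?_, ?_, fun {y} hy => ?_⟩
  · refine p.le_radius_of_bound (Real.exp 1 * M) fun n => ?_
    have hn : (0:ℝ) < n + 1 := by positivity
    have h1 := norm_iteratedFDeriv_le (δ := R / (n + 1)) (by positivity) hd hM n c (by
      rw [dist_self, zero_add, ← mul_div_assoc, div_lt_iff₀ hn]; nlinarith)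
    have h2 := Real.pow_div_factorial_le_exp ((n : ℝ) + 1) hn.le (n + 1)
    have h3 : Real.exp ((n : ℝ) + 1) = Real.exp 1 ^ n * Real.exp 1 := by
      rw [Real.exp_add, ← Real.exp_nat_mul, mul_one]
    have h4 : ((n : ℝ) + 1) ^ (n + 1) / ((n + 1).factorial : ℝ) =
        ((n : ℝ) + 1) ^ n / (n.factorial : ℝ) := by
      rw [Nat.factorial_succ, pow_succ]; push_cast; field_simp
    rw [h3, h4] at h2
    have h5 : ‖p n‖ = (n.factorial : ℝ)⁻¹ * ‖iteratedFDeriv ℂ n f c‖ := by
      simp only [p]; rw [norm_smul, norm_inv, Complex.norm_natCast]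
    rw [h5, hr]
    calc _ ≤ (n.factorial : ℝ)⁻¹ * ((2 / (R / (n + 1))) ^ n * M) * (R / (2 * Real.exp 1)) ^ n := by
          gcongr
      _ = ((n : ℝ) + 1) ^ n / (n.factorial : ℝ) * M / Real.exp 1 ^ n := by
          rw [mul_assoc, mul_right_comm, ← mul_pow,
            show 2 / (R / (n + 1)) * (R / (2 * Real.exp 1)) = ((n : ℝ) + 1) / Real.exp 1 by
              field_simp, div_pow]
          field_simp
      _ ≤ Real.exp 1 ^ n * Real.exp 1 * M / Real.exp 1 ^ n := by gcongr
      _ = Real.exp 1 * M := by field_simp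
  · have : (0:ℝ) < r := by rw [hr]; positivity
    exact_mod_cast this
  · rw [Metric.eball_coe, mem_ball_zero_iff, hr] at hy
    have hy2 : ‖y‖ * 2 < R := by
      rw [lt_div_iff₀ (by positivity)] at hy
      nlinarith [norm_nonneg y]
    have h1 : DifferentiableOn ℂ (fun t : ℂ => f (c + t • y)) (ball 0 2) := by
      refine hd.comp (DifferentiableOn.const_add c (differentiableOn_id.smul_const y))
        fun t ht => ?_
      rw [mem_ball_zero_iff] at ht
      rw [mem_ball_iff_norm, add_sub_cancel_left, norm_smul]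
      nlinarith [norm_nonneg y, norm_nonneg t]
    have h2 := Complex.hasSum_taylorSeries_on_ball h1 (z := 1) (by simp)
    simpa [iteratedDeriv_line hR hd, p] using h2

/-- A holomorphic map on an open subset of a finite dimensional space is analytic. -/
theorem analyticOnNhd_of_differentiableOn {f : E → F} {U : Set E} (hU : IsOpen U)
    (hd : DifferentiableOn ℂ f U) : AnalyticOnNhd ℂ f U := fun c hc => by
  obtain ⟨R, hR, M, hRU, hM⟩ := exists_ball_bound hU hd hc
  exact analyticAt_of_ball hR (hd.mono hRU) hM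

theorem analyticAt_of_eventually {f : E → F} {c : E}
    (hd : ∀ᶠ z in 𝓝 c, DifferentiableAt ℂ f z) : AnalyticAt ℂ f c := by
  obtain ⟨R, hR, h⟩ := Metric.eventually_nhds_iff_ball.mp hd
  exact analyticOnNhd_of_differentiableOn isOpen_ball
    (fun z hz => (h z hz).differentiableWithinAt) c (mem_ball_self hR)

end P278F
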