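import Mathlib

/-! Holomorphic maps between complex normed spaces: Cauchy type estimates. -/

open Metric Set Filter Topology

namespace P278F

variable {E F : Type*} [NormedAddCommGroup E] [NormedSpace ℂ E]
  [NormedAddCommGroup F] [NormedSpace ℂ F]

omit [NormedSpace ℂ E] [NormedSpace ℂ F] in
theorem mapsTo_of_bound {f : E → F} {c : E} {R M : ℝ} (hR : 0 < R)
    (hM : ∀ z ∈ ball c R, ‖f z‖ ≤ M) : MapsTo f (ball c R) (closedBall (f c) (2 * M)) := by
  intro z hz
  have h1 := hM z hz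
  have h2 := hM c (mem_ball_self hR)
  rw [mem_closedBall, dist_eq_norm]
  have := norm_sub_le (f z) (f c)
  linarith

theorem norm_fderiv_le {f : E → F} {c : E} {R M : ℝ} (hR : 0 < R)
    (hd : DifferentiableOn ℂ f (ball c R)) (hM : ∀ z ∈ ball c R, ‖f z‖ ≤ M) :
    ‖fderiv ℂ f c‖ ≤ 2 * M / R :=
  Complex.norm_fderiv_le_div_of_mapsTo_ball hd (mapsTo_of_bound hR hM) hR

theorem norm_sub_le_of_bound {f : E → F} {c z : E} {R M : ℝ}
    (hd : DifferentiableOn ℂ f (ball c R)) (hM : ∀ z ∈ ball c R, ‖f z‖ ≤ M) (hz : z ∈ ball c R) :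
    ‖f z - f c‖ ≤ 2 * M / R * ‖z - c‖ := by
  have hR : 0 < R := nonempty_ball.mp ⟨_, hz⟩
  simpa [dist_eq_norm] using
    Complex.dist_le_div_mul_dist_of_mapsTo_ball hd (mapsTo_of_bound hR hM) hz

theorem second_order {f : E → F} {c z : E} {R M : ℝ}
    (hd : DifferentiableOn ℂ f (ball c R)) (hM : ∀ z ∈ ball c R, ‖f z‖ ≤ M) (hz : z ∈ ball c R) :
    ‖f z - f c - fderiv ℂ f c (z - c)‖ ≤ 4 * M / R ^ 2 * ‖z - c‖ ^ 2 := by
  have hR : 0 < R := nonempty_ball.mp ⟨_, hz⟩
  have hM0 : 0 ≤ M := (norm_nonneg _).trans (hM z hz)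
  have hf : HasFDerivAt f (fderiv ℂ f c) c :=
    (hd.differentiableAt (ball_mem_nhds _ hR)).hasFDerivAt
  set g : E → F := fun w => f w - fderiv ℂ f c (w - c) with hg
  have hgd : DifferentiableOn ℂ g (ball c R) := by
    refine hd.sub ?_
    exact ((fderiv ℂ f c).differentiable.comp (differentiable_id.sub_const c)).differentiableOn
  have hgc : g c = f c := by simp [hg]
  have hmaps : MapsTo g (ball c R) (closedBall (g c) (4 * M)) := by
    intro w hw
    rw [mem_closedBall, dist_eq_norm, hgc]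
    have h1 := hM w hw
    have h2 := hM c (mem_ball_self hR)
    have h3 : ‖fderiv ℂ f c (w - c)‖ ≤ 2 * M := by
      calc _ ≤ ‖fderiv ℂ f c‖ * ‖w - c‖ := ContinuousLinearMap.le_opNorm _ _
        _ ≤ (2 * M / R) * R := by
          gcongr
          · exact norm_fderiv_le hR hd hM
          · exact (mem_ball_iff_norm.mp hw).le
        _ = 2 * M := by field_simp
    have h4 : g w - f c = f w - f c - fderiv ℂ f c (w - c) := by simp only [hg]; abel
    rw [h4]
    have h5 := norm_sub_le (f w - f c) (fderiv ℂ f c (w - c))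
    have h6 := norm_sub_le (f w) (f c)
    linarith
  have hn : (fun w => g w - g c) =o[𝓝 c] (fun w => ‖w - c‖ ^ 1) := by
    have := hf.isLittleO.norm_right
    refine this.congr' (Eventually.of_forall fun w => ?_) (Eventually.of_forall fun w => by simp)
    simp only [hg, sub_self, map_zero, sub_zero]; abel
  have := Complex.dist_le_mul_div_pow_of_mapsTo_ball_of_isLittleO hgd hmaps hn hz
  rw [dist_eq_norm, dist_eq_norm, hgc] at this
  have h4 : g z - f c = f z - f c - fderiv ℂ f c (z - c) := by simp only [hg]; abel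
  rw [h4] at this
  refine this.trans_eq ?_
  rw [show (1 + 1 : ℕ) = 2 from rfl]
  field_simp

theorem hasFDerivAt_of_sq {f : E → F} {c : E} {L : E →L[ℂ] F} {R C : ℝ} (hR : 0 < R)
    (h : ∀ z ∈ ball c R, ‖f z - f c - L (z - c)‖ ≤ C * ‖z - c‖ ^ 2) : HasFDerivAt f L c := by
  rw [hasFDerivAt_iff_isLittleO]
  have h1 : (fun z => f z - f c - L (z - c)) =O[𝓝 c] (fun z => ‖z - c‖ ^ 2) := by
    refine Asymptotics.IsBigO.of_bound C ?_
    filter_upwards [ball_mem_nhds c hR] with z hz
    simpa using h z hz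
  refine h1.trans_isLittleO ?_
  have h2 := Asymptotics.isLittleO_norm_pow_id (E' := E) (n := 2) one_lt_two
  have h3 : Tendsto (fun z => z - c) (𝓝 c) (𝓝 0) := by
    have : Continuous fun z : E => z - c := by fun_prop
    simpa using this.tendsto c
  exact h2.comp_tendsto h3

theorem exists_ball_bound {f : E → F} {U : Set E} (hU : IsOpen U) (hd : DifferentiableOn ℂ f U)
    {c : E} (hc : c ∈ U) : ∃ R > 0, ∃ M, ball c R ⊆ U ∧ ∀ z ∈ ball c R, ‖f z‖ ≤ M := by
  have h1 : ContinuousAt f c := (hd.differentiableAt (hU.mem_nhds hc)).continuousAt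
  have h2 : ∀ᶠ z in 𝓝 c, ‖f z‖ < ‖f c‖ + 1 :=
    h1.norm.eventually (gt_mem_nhds (by linarith))
  obtain ⟨R, hR, h⟩ := Metric.eventually_nhds_iff_ball.mp (h2.and (hU.mem_nhds hc))
  exact ⟨R, hR, ‖f c‖ + 1, fun z hz => (h z hz).2, fun z hz => (h z hz).1.le⟩

/-- Weierstrass: a uniform limit of holomorphic maps is holomorphic. -/
theorem differentiableAt_of_unif [CompleteSpace F] {f : ℕ → E → F} {g : E → F} {c : E} {R : ℝ}
    {e : ℕ → ℝ} (hR : 0 < R) (hd : ∀ n, DifferentiableOn ℂ (f n) (ball c R))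
    (he : Tendsto e atTop (𝓝 0)) (hc : ∀ n, ∀ z ∈ ball c R, ‖f n z - g z‖ ≤ e n) :
    DifferentiableAt ℂ g c := by
  obtain ⟨r, hr, M, hrR, hM⟩ := exists_ball_bound isOpen_ball (hd 0) (mem_ball_self hR)
  have hd' : ∀ n, DifferentiableOn ℂ (f n) (ball c r) := fun n => (hd n).mono hrR
  have hat : ∀ n, DifferentiableAt ℂ (f n) c := fun n =>
    (hd n).differentiableAt (ball_mem_nhds _ hR)
  have hcau : CauchySeq fun n => fderiv ℂ (f n) c := by
    rw [cauchySeq_iff_tendsto_dist_atTop_0]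
    have h1 : Tendsto (fun n : ℕ × ℕ => 2 * (e n.1 + e n.2) / R) atTop (𝓝 0) := by
      have h2 : Tendsto (fun n : ℕ × ℕ => e n.1) atTop (𝓝 0) := by
        rw [← prod_atTop_atTop_eq]; exact he.comp tendsto_fst
      have h3 : Tendsto (fun n : ℕ × ℕ => e n.2) atTop (𝓝 0) := by
        rw [← prod_atTop_atTop_eq]; exact he.comp tendsto_snd
      simpa using ((h2.add h3).const_mul 2).div_const R
    refine squeeze_zero (fun _ => dist_nonneg) (fun n => ?_) h1
    rw [dist_eq_norm, ← fderiv_sub (hat n.1) (hat n.2)]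
    refine norm_fderiv_le hR ((hd n.1).sub (hd n.2)) fun z hz => ?_
    have h4 : (f n.1 - f n.2) z = (f n.1 z - g z) - (f n.2 z - g z) := by simp
    rw [h4]
    exact (norm_sub_le _ _).trans (add_le_add (hc _ z hz) (hc _ z hz))
  obtain ⟨L, hL⟩ := cauchySeq_tendsto_of_complete hcau
  have hpt : ∀ z ∈ ball c R, Tendsto (fun n => f n z) atTop (𝓝 (g z)) := fun z hz => by
    rw [tendsto_iff_norm_sub_tendsto_zero]
    exact squeeze_zero (fun _ => norm_nonneg _) (fun n => hc n z hz) he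
  refine (hasFDerivAt_of_sq (L := L) (C := 4 * (M + e 0 + 0) / r ^ 2) hr
    fun z hz => ?_).differentiableAt
  have h1 : Tendsto (fun n => ‖f n z - f n c - fderiv ℂ (f n) c (z - c)‖) atTop
      (𝓝 ‖g z - g c - L (z - c)‖) := by
    refine Tendsto.norm (((hpt z (hrR hz)).sub (hpt c (mem_ball_self hR))).sub ?_)
    exact ((ContinuousLinearMap.apply ℂ F (z - c)).continuous.tendsto L).comp hL
  have h2 : Tendsto (fun n => 4 * (M + e 0 + e n) / r ^ 2 * ‖z - c‖ ^ 2) atTop
      (𝓝 (4 * (M + e 0 + 0) / r ^ 2 * ‖z - c‖ ^ 2)) :=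
    (((he.const_add _).const_mul 4).div_const _).mul_const _
  refine le_of_tendsto_of_tendsto' h1 h2 fun n => second_order (hd' n) (fun w hw => ?_) hz
  have h3 : f n w = f 0 w - (f 0 w - g w) + (f n w - g w) := by abel
  rw [h3]
  refine (norm_add_le _ _).trans (add_le_add ((norm_sub_le _ _).trans ?_) (hc n w (hrR hw)))
  exact add_le_add (hM w hw) (hc 0 w (hrR hw))

/-- Directional derivatives of a holomorphic map are holomorphic. -/
theorem differentiableOn_fderiv_apply [CompleteSpace F] {f : E → F} {U : Set E} (hU : IsOpen U)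
    (hd : DifferentiableOn ℂ f U) (v : E) : DifferentiableOn ℂ (fun z => fderiv ℂ f z v) U := by
  intro c hc
  obtain ⟨R, hR, M, hRU, hM⟩ := exists_ball_bound hU hd hc
  refine DifferentiableAt.differentiableWithinAt ?_
  set a : ℝ := R / 2 / (‖v‖ + 1) with ha
  have ha0 : 0 < a := by positivity
  set t : ℕ → ℝ := fun n => a / (n + 1) with ht
  have ht0 : ∀ n, 0 < t n := fun n => by positivity
  have htv : ∀ n, ‖((t n : ℝ) : ℂ) • v‖ < R / 2 := fun n => by
    rw [norm_smul, Complex.norm_real, Real.norm_eq_abs, abs_of_pos (ht0 n)]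
    have h1 : t n ≤ a := div_le_self ha0.le (by linarith [Nat.cast_nonneg (α := ℝ) n])
    have h2 : a * (‖v‖ + 1) = R / 2 := by rw [ha]; field_simp
    nlinarith [norm_nonneg v]
  have hsub : ∀ z ∈ ball c (R / 2), ball z (R / 2) ⊆ ball c R := fun z hz w hw => by
    rw [mem_ball] at *
    linarith [dist_triangle w z c]
  have hmem : ∀ n, ∀ z : E, z + ((t n : ℝ) : ℂ) • v ∈ ball z (R / 2) := fun n z => by
    rw [mem_ball_iff_norm]; simpa using htv n
  refine differentiableAt_of_unif (R := R / 2)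
    (f := fun n z => ((t n : ℝ) : ℂ)⁻¹ • (f (z + ((t n : ℝ) : ℂ) • v) - f z))
    (e := fun n => 4 * M / (R / 2) ^ 2 * ‖v‖ ^ 2 * t n) (by positivity) (fun n => ?_) ?_ ?_
  · refine DifferentiableOn.const_smul (DifferentiableOn.sub ?_ ?_) _
    · refine hd.comp (differentiableOn_id.add_const _) fun z hz => ?_
      exact hRU (hsub z hz (hmem n z))
    · exact hd.mono ((ball_subset_ball (by linarith)).trans hRU)
  · have h1 : Tendsto t atTop (𝓝 0) := by
      simpa [ht, div_eq_mul_inv] using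
        (tendsto_one_div_add_atTop_nhds_zero_nat (𝕜 := ℝ)).const_mul a
    simpa using h1.const_mul (4 * M / (R / 2) ^ 2 * ‖v‖ ^ 2)
  · intro n z hz
    have h1 := second_order (hd.mono ((hsub z hz).trans hRU)) (fun w hw => hM w (hsub z hz hw))
      (hmem n z)
    have hne : ((t n : ℝ) : ℂ) ≠ 0 := by exact_mod_cast (ht0 n).ne'
    have h2 : ((t n : ℝ) : ℂ)⁻¹ • (f (z + ((t n : ℝ) : ℂ) • v) - f z) - fderiv ℂ f z v =
        ((t n : ℝ) : ℂ)⁻¹ • (f (z + ((t n : ℝ) : ℂ) • v) - f z -
          fderiv ℂ f z (z + ((t n : ℝ) : ℂ) • v - z)) := by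
      rw [add_sub_cancel_left, map_smul, smul_sub ((t n : ℝ) : ℂ)⁻¹ (_ - _), smul_smul,
        inv_mul_cancel₀ hne, one_smul]
    rw [h2, norm_smul, norm_inv, Complex.norm_real, Real.norm_eq_abs, abs_of_pos (ht0 n)]
    rw [add_sub_cancel_left, norm_smul, Complex.norm_real, Real.norm_eq_abs,
      abs_of_pos (ht0 n)] at h1
    rw [add_sub_cancel_left, inv_mul_le_iff₀ (ht0 n)]
    refine h1.trans_eq ?_
    ring

/-- The derivative of a holomorphic map on a finite dimensional space is holomorphic. -/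
theorem differentiableOn_fderiv [CompleteSpace F] [FiniteDimensional ℂ E] {f : E → F} {U : Set E}
    (hU : IsOpen U) (hd : DifferentiableOn ℂ f U) : DifferentiableOn ℂ (fderiv ℂ f) U := by
  let b := Module.finBasis ℂ E
  have h : ∀ z, fderiv ℂ f z = ∑ i, ContinuousLinearMap.smulRightL ℂ E F
      (LinearMap.toContinuousLinearMap (b.coord i)) (fderiv ℂ f z (b i)) := fun z => by
    ext v
    conv_lhs => rw [← b.sum_repr v, map_sum]
    simp
  have h2 : fderiv ℂ f = fun z => ∑ i, ContinuousLinearMap.smulRightL ℂ E F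
      (LinearMap.toContinuousLinearMap (b.coord i)) (fderiv ℂ f z (b i)) := funext h
  rw [h2]
  refine DifferentiableOn.fun_sum fun i _ => ?_
  exact (ContinuousLinearMap.differentiable _).comp_differentiableOn
    (differentiableOn_fderiv_apply hU hd (b i))

theorem contDiffOn_nat_aux {E : Type*} [NormedAddCommGroup E] [NormedSpace ℂ E]
    [FiniteDimensional ℂ E] {U : Set E} (hU : IsOpen U) (n : ℕ) {F : Type*}
    [NormedAddCommGroup F] [NormedSpace ℂ F] [CompleteSpace F] :
    ∀ {f : E → F}, DifferentiableOn ℂ f U → ContDiffOn ℂ n f U := by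
  induction n with
  | zero => intro f hd; simpa using hd.continuousOn
  | succ n ih =>
    intro f hd
    rw [show ((n + 1 : ℕ) : WithTop ℕ∞) = n + 1 by push_cast; rfl,
      contDiffOn_succ_iff_fderiv_of_isOpen hU]
    refine ⟨hd, by simp, ?_⟩
    rw [contDiffOn_clm_apply]
    exact fun v => ih (differentiableOn_fderiv_apply hU hd v)

/-- A holomorphic map on an open subset of a finite dimensional space is smooth. -/
theorem contDiffOn_infty [CompleteSpace F] [FiniteDimensional ℂ E] {f : E → F} {U : Set E}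
    (hU : IsOpen U) (hd : DifferentiableOn ℂ f U) : ContDiffOn ℂ (⊤ : ℕ∞) f U :=
  _root_.contDiffOn_infty.mpr fun n => contDiffOn_nat_aux hU n hd

theorem contDiffAt_nat [CompleteSpace F] [FiniteDimensional ℂ E] {f : E → F} {c : E}
    (hd : ∀ᶠ z in 𝓝 c, DifferentiableAt ℂ f z) (n : ℕ) : ContDiffAt ℂ n f c := by
  obtain ⟨R, hR, h⟩ := Metric.eventually_nhds_iff_ball.mp hd
  exact (contDiffOn_nat_aux isOpen_ball n
    fun z hz => (h z hz).differentiableWithinAt).contDiffAt (ball_mem_nhds c hR)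

end P278F
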